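import Vale.Agent.P338.Final

namespace Vale.Agent.Results.P338.Fast

open Vale.Agent.P338

theorem result :
    (∃ A : MTM, A.Multiplies ∧ ∃ δ : ℝ, 0 < δ ∧ ∃ K : ℝ, ∀ n : ℕ, 2 ≤ n →
      (A.worst n : ℝ) ≤ K * n * Real.log n ^ (1 - δ)) ∧
    ¬ ∀ A : MTM, A.Multiplies → ∃ c : ℝ, 0 < c ∧ ∃ N : ℕ, 2 ≤ N ∧
      ∀ n : ℕ, N ≤ n → c * n * Real.log n ≤ A.worst n :=
  ⟨fast_machine, not_lower_bound⟩

end Vale.Agent.Results.P338.Fast
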